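import Vale.Agent.P167.H713.Q.Seam2
import Vale.Agent.P167.H653.Real.Main

/-!
# P167, general `q`, Stage II: the boundary squares of the realization

`R : RealP q S₀ N v₀ t K p k S f`: the polygon `p` realizes the enlargement of `q`.
* `wired_near`: the open squares off the shape are near the sites `cc i`, `K ≤ i ≤ m N`;
* `closed_near`: the closed squares off the shape at an odd site of the shape are near the sites
  `cc i`, `i ≤ K`;
* `arc2_true`, `arc2_false`: the condition of the seam at the boundary sites.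
-/

set_option autoImplicit false

namespace Vale.Agent.P167.H692.G2

open Finset Relation Vale.Agent.P167.FK
open Vale.Agent.P167.E6 (IsPolygon Encloses edges face dir)
open Vale.Agent.P167.H718 (Dq etaQ wE)
open Vale.Agent.P167.H72.SD (Wr)
open Vale.Agent.P167.FKA (Cor)
open Vale.Agent.P167.H713.Q (Arc2)
open Vale.Agent.P167.H653.Real (RealP cc cN dN)
open Vale.Agent.P167.H825 (enl)
open Vale.Agent.P167.H192 (ro rf sq ed)

/-- The distance of two sites is at most `3`. -/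
def Nr (s u : ℤ × ℤ) : Prop := |s.1 - u.1| ≤ 3 ∧ |s.2 - u.2| ≤ 3

theorem nr_of {x s o u : ℤ × ℤ} (hs : Cor x s) (ho : Cor x o)
    (h : |o.1 - u.1| ≤ 2 ∧ |o.2 - u.2| ≤ 2) : Nr s u := by
  obtain ⟨h1, h2⟩ := hs
  obtain ⟨h3, h4⟩ := ho
  obtain ⟨h5, h6⟩ := h
  unfold Nr
  simp only [abs_le] at h5 h6 ⊢
  omega

/-- The vertices of an edge are corners of its square. -/
theorem cor_ends (a : ℤ × ℤ) (r : Fin 4) :
    Cor (sq s(a, a + dir r)) (ro a) ∧ Cor (sq s(a, a + dir r)) (ro (a + dir r)) := by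
  have h3 := H72.SD.ed_sqr_dir a r
  obtain ⟨h4, h5⟩ := H192.ro_dir a r
  rw [← h3]
  unfold Cor H72.SD.sqr
  dsimp only
  omega

variable {m : ℕ} {q : ZMod m → ℤ × ℤ} {S₀ : Finset (ℤ × ℤ)} {N : ℕ} {v₀ : ℤ × ℤ} {t K : ℕ}
  {n : ℕ} {p : ZMod n → ℤ × ℤ} {k : ℕ} {S : Finset (ℤ × ℤ)} {f : ℕ → ℕ} {x y s : ℤ × ℤ}

theorem cor_edge (hp : IsPolygon p) (i : ZMod n) :
    Cor (sq s(p i, p (i + 1))) (ro (p i)) ∧ Cor (sq s(p i, p (i + 1))) (ro (p (i + 1))) := by
  obtain ⟨r, hr⟩ := hp.2.2 i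
  rw [hr]
  exact cor_ends _ _

/-- **Open squares off the shape.** -/
theorem wired_near (R : RealP q S₀ N v₀ t K p k S f) (hy : etaQ p k y = true) (hys : Cor y s) :
    ∃ i, K ≤ i ∧ i ≤ m * N ∧ Nr s (cc q N t v₀ i) := by
  have h1 : H192.ed y ∈ wE p k := mem_coe.1 (H192.cfg_true.1 hy)
  obtain ⟨i, hi1, hi2, he⟩ := H718.mem_wE.1 h1
  have h2 : y = sq s(p i, p (i + 1)) := by rw [← he, H192.sq_ed]
  have h3 := (cor_edge R.poly (i : ZMod n)).1
  rw [← h2] at h3
  exact ⟨f i, by rw [← R.f_k]; exact R.mono hi1, by rw [← R.f_n]; exact R.mono (by omega),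
    nr_of hys h3 (R.near i (by omega))⟩

/-- **Closed squares off the shape.** -/
theorem closed_near (R : RealP q S₀ N v₀ t K p k S f) (hx : x ∈ Dq S p k) (hxs : Cor x s)
    (hs : Odd (s.1 + s.2)) (hy : y ∉ Dq S p k) (h1 : etaQ p k y = false) (hys : Cor y s) :
    ∃ i, i ≤ K ∧ Nr s (cc q N t v₀ i) := by
  obtain ⟨f₀, hf₀, rfl⟩ := face_of hy h1 hs hys
  have hs' := Int.odd_iff.1 hs
  obtain ⟨hx1, hx2⟩ := H718.mem_Dq'.1 hx
  obtain ⟨a, r, he⟩ := H192.isEdge_ed x
  have hxe : x = sq s(a, a + dir r) := by rw [← he, H192.sq_ed]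
  -- the two faces of the edge
  have hbd : (face a r ∈ S ∧ face a (r - 1) ∉ S) ∨ (face a (r - 1) ∈ S ∧ face a r ∉ S) := by
    obtain ⟨g, hg, r', hr'⟩ := (H653.Real.mem_edges_iff (H192.isEdge_ed x)).1 hx1
    rw [H192.sq_ed] at hr'
    have hcg : Cor x (rf g) := by
      rw [hr']
      have key : ∀ r : Fin 4, Cor (face (rf g) r) (rf g) := by
        refine E2.forall4 ?_ ?_ ?_ ?_ <;> simp [face, Cor]
      exact key r'
    have hgo : ((rf g).1 + (rf g).2) % 2 = 1 := H634.par_rf g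
    have k1 : rf f₀ = rf (face a r) ∨ rf f₀ = rf (face a (r - 1)) :=
      H713.Q.odd_cor hs' (hxe ▸ hxs)
    have k2 : rf g = rf (face a r) ∨ rf g = rf (face a (r - 1)) :=
      H713.Q.odd_cor hgo (hxe ▸ hcg)
    rcases k1 with k1 | k1 <;> rcases k2 with k2 | k2
    · exact absurd hg (by rw [rf_inj (k2.trans k1.symm)]; exact hf₀)
    · exact Or.inr ⟨by rw [← rf_inj k2]; exact hg, by rw [← rf_inj k1]; exact hf₀⟩
    · exact Or.inl ⟨by rw [← rf_inj k2]; exact hg, by rw [← rf_inj k1]; exact hf₀⟩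
    · exact absurd hg (by rw [rf_inj (k2.trans k1.symm)]; exact hf₀)
  -- the edge is an edge of the polygon
  obtain ⟨i, hi⟩ : ∃ i : ZMod n, s(p i, p (i + 1)) = s(a, a + dir r) := by
    rcases hbd with h2 | h2
    · obtain ⟨i, h3, h4⟩ := (R.encl a r).2 h2
      exact ⟨i, by rw [h4, h3]⟩
    · have e1 : face (a + dir r) (r + 2) = face a (r - 1) ∧
          face (a + dir r) (r + 2 - 1) = face a r ∧ a + dir r + dir (r + 2) = a := by
        have key : ∀ r : Fin 4, face (a + dir r) (r + 2) = face a (r - 1) ∧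
          face (a + dir r) (r + 2 - 1) = face a r ∧ a + dir r + dir (r + 2) = a := by
          obtain ⟨a1, a2⟩ := a
          intro r
          fin_cases r <;> simp [face, dir, Fin.add_def, Fin.sub_def]
        exact key r
      obtain ⟨e1, e2, e3⟩ := e1
      obtain ⟨i, h3, h4⟩ := (R.encl (a + dir r) (r + 2)).2 (by rw [e1, e2]; exact h2)
      refine ⟨i, ?_⟩
      rw [h4, h3, e3, Sym2.eq_swap]
  have hn := R.poly.1
  have : NeZero n := ⟨by omega⟩
  have hiv : ((i.val : ℕ) : ZMod n) = i := ZMod.natCast_zmod_val i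
  have hlt := ZMod.val_lt i
  have hxi : x = sq s(p i, p (i + 1)) := by rw [hi, ← hxe]
  by_cases hk : i.val < k
  · refine ⟨f i.val, by rw [← R.f_k]; exact R.mono hk.le, ?_⟩
    have h3 := (cor_edge R.poly i).1
    rw [← hxi] at h3
    refine nr_of hxs h3 ?_
    have := R.near i.val hlt
    rwa [hiv] at this
  · have h3 : i.val + 1 = n := by
      by_contra h3
      refine hx2 (H718.mem_wE.2 ⟨i.val, by omega, by omega, ?_⟩)
      rw [hiv, hxi, H192.ed_sq]
      rw [hi]
      exact ⟨a, r, rfl⟩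
    have h4 : i + 1 = ((0 : ℕ) : ZMod n) := by
      rw [← hiv]
      have : (((i.val + 1 : ℕ)) : ZMod n) = ((0 : ℕ) : ZMod n) := by
        rw [h3, ZMod.natCast_self, Nat.cast_zero]
      rw [← this]
      push_cast
      rfl
    refine ⟨f 0, by rw [R.f_zero]; omega, ?_⟩
    have h5 := (cor_edge R.poly i).2
    rw [← hxi, h4] at h5
    exact nr_of hxs h5 (R.near 0 (by omega))

/-- **The condition of the seam on the free side.** -/
theorem arc2_true (R : RealP q S₀ N v₀ t K p k S f)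
    (hfar : ∀ i, K ≤ i → i ≤ m * N → ¬ Nr s (cc q N t v₀ i)) :
    Arc2 true (Dq S p k) (etaQ p k) s := by
  unfold Arc2
  rw [if_pos rfl]
  intro y _ hys
  by_contra h1
  obtain ⟨i, h2, h3, h4⟩ := wired_near R (by simpa using h1) hys
  exact hfar i h2 h3 h4

/-- The squares at a site. -/
theorem cor_face (h : Cor x s) : ∃ r, x = face s r := by
  obtain ⟨h1, h2⟩ := h
  obtain ⟨a, b⟩ := s
  obtain ⟨c, d⟩ := x
  simp only at h1 h2
  rcases h1 with h1 | h1 <;> rcases h2 with h2 | h2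
  · exact ⟨0, by ext <;> simp [face] <;> omega⟩
  · exact ⟨3, by ext <;> simp [face] <;> omega⟩
  · exact ⟨1, by ext <;> simp [face] <;> omega⟩
  · exact ⟨2, by ext <;> simp [face] <;> omega⟩

/-- A site with a square in `D` and a square off `D`. -/
theorem exists_turn {D : Finset (ℤ × ℤ)} (hx : x ∈ D) (hxs : Cor x s) (hy : y ∉ D)
    (hys : Cor y s) : ∃ r, face s r ∈ D ∧ face s (r - 1) ∉ D := by
  obtain ⟨r, rfl⟩ := cor_face hxs
  obtain ⟨r', rfl⟩ := cor_face hys
  by_contra h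
  push Not at h
  have h1 := h r hx
  have h2 := h _ h1
  have h3 := h _ h2
  have h4 := h _ h3
  have key : ∀ r r' : Fin 4, r' = r ∨ r' = r - 1 ∨ r' = r - 1 - 1 ∨ r' = r - 1 - 1 - 1 := by decide
  rcases key r r' with rfl | rfl | rfl | rfl <;> exact hy ‹_›

/-- **The boundary sites of the shape are the sites `cc i`.** -/
theorem exists_cc (hq : IsPolygon q) (hE : Encloses q S₀) (hN : 0 < N)
    (R : RealP q S₀ N v₀ t K p k S f) (hx : x ∈ Dq S p k) (hxs : Cor x s) (hy : y ∉ Dq S p k)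
    (hys : Cor y s) : ∃ i, i < m * N ∧ s = cc q N t v₀ i := by
  have hm := hq.1
  have : NeZero m := ⟨by omega⟩
  have : NeZero (m * N) := ⟨by positivity⟩
  have hEnc : Encloses (cN q N t v₀) (dN S₀ N v₀) :=
    H653.Real.encloses_tr (Enl.encloses_qN hN hq hE t) v₀
  rw [R.dq] at hx hy
  obtain ⟨r, h1⟩ := exists_turn hx hxs hy hys
  obtain ⟨i, h2, -⟩ := (hEnc s r).2 h1
  refine ⟨i.val, ZMod.val_lt i, ?_⟩
  rw [← h2]
  unfold cN cc
  rw [← Enl.qN_nat hN t i.val, ZMod.natCast_zmod_val]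

/-- **The condition of the seam on the wired side.** -/
theorem arc2_false (hq : IsPolygon q) (hE : Encloses q S₀) (hN : 0 < N)
    (R : RealP q S₀ N v₀ t K p k S f) (hx : x ∈ Dq S p k) (hxs : Cor x s) (hy : y ∉ Dq S p k)
    (hys : Cor y s) (hfar : ∀ i, i ≤ K → ¬ Nr s (cc q N t v₀ i)) :
    Arc2 false (Dq S p k) (etaQ p k) s := by
  have hm := hq.1
  have : NeZero m := ⟨by omega⟩
  have : NeZero (m * N) := ⟨by positivity⟩
  unfold Arc2
  rw [if_neg (by simp)]
  have hself : ∀ u : ℤ × ℤ, Nr u u := fun u => by unfold Nr; simp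
  constructor
  · intro hs
    obtain ⟨i, hi, rfl⟩ := exists_cc hq hE hN R hx hxs hy hys
    have hK : K < i := by
      by_contra h1
      exact hfar i (by omega) (hself _)
    have e1 : ∀ i : ℕ, Enl.qN q N t (i : ZMod (m * N)) + v₀ = cc q N t v₀ i := by
      intro i
      unfold cc
      rw [Enl.qN_nat hN]
    have e2 : Enl.qN q N t ((m * N : ℕ) : ZMod (m * N)) + v₀ = cc q N t v₀ 0 := by
      rw [ZMod.natCast_self, ← e1 0, Nat.cast_zero]
    have hst : Even ((cc q N t v₀ 0).1 + (cc q N t v₀ 0).2) := by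
      rw [← R.start]
      exact H192.even_ro _
    have h2 := R.dob.join i (m * N) hK.le hi.le (by omega) le_rfl
      (by rw [e1]; exact Int.even_iff.2 hs) (by rw [e2]; exact hst)
    rw [e1, e2] at h2
    have hne : cc q N t v₀ i ≠ cc q N t v₀ 0 := by
      intro h3
      exact hfar 0 (by omega) (h3 ▸ hself _)
    unfold H718.OutC at h2
    rcases ReflTransGen.cases_head h2 with h3 | ⟨c, h3, -⟩
    · exact absurd h3 hne
    · obtain ⟨h4, h5⟩ := FKA.cor_of_step h3
      have h7 := h3.2.2.1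
      have h8 := h3.2.2.2
      refine ⟨Int.even_iff.2 hs, _, ?_, h7, h4⟩
      rw [R.dq]
      exact fun h9 => h8 (mem_coe.2 h9)
  · intro hs y' hy' hys'
    by_contra h1
    obtain ⟨i, h2, h3⟩ := closed_near R hx hxs (Int.odd_iff.2 hs) hy' (by simpa using h1) hys'
    exact hfar i h2 h3

end Vale.Agent.P167.H692.G2
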