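import Vale.Agent.P167.H692.G2.ArcR
import Vale.Agent.P167.H446.G.Arith

/-!
# P167, general `q`, Stage II: the realization in the rotated frame

`fr δ v₀ z = rt z - dl pt v₀`, `dl = δ / √2`, the unit is `dl N`; the shape is
`Pm = fr ⁻¹' interior (region (dl N) S₀)`.
* `Io_fr`, `zp_fr`: the squares and the sites in the frame;
* `isOpen_Pm`, `p1_Pm`, `p2_Pm`: the fields of the seam;
* `frontier_Pm`: the sites on the boundary of the shape;
* `far_true`, `far_false`: sites which are not near the sides.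
-/

set_option autoImplicit false

namespace Vale.Agent.P167.H692.G2

open Set Metric
open Vale.Agent.P167.E6 (IsPolygon Encloses edges face dir region pt)
open Vale.Agent.P167.H718 (Dq etaQ)
open Vale.Agent.P167.FKA (Cor)
open Vale.Agent.P167.H713.Q (Io Arc2)
open Vale.Agent.P167.H653.Real (RealP cc)
open Vale.Agent.P167.H825 (enl pdir)
open Vale.Agent.P167.H446.G (rt rt_re rt_im psr)
open Vale.Agent.P167.H161 (zp)

/-- The frame. -/
noncomputable def fr (δ : ℝ) (v₀ : ℤ × ℤ) (z : ℂ) : ℂ := rt * z + -((H446.G.dl δ : ℂ) * pt v₀)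

theorem psr_eq (δ : ℝ) (v₀ : ℤ × ℤ) (ψ : ℂ → ℂ) (z : ℂ) : psr δ v₀ ψ z = fr δ v₀ (ψ z) := rfl

/-- The shape, unrotated. -/
def Pm (δ : ℝ) (v₀ : ℤ × ℤ) (N : ℕ) (S₀ : Finset (ℤ × ℤ)) : Set ℂ :=
  fr δ v₀ ⁻¹' interior (region (H446.G.dl δ * N) S₀)

theorem continuous_fr (δ : ℝ) (v₀ : ℤ × ℤ) : Continuous (fr δ v₀) := by
  unfold fr
  fun_prop

theorem fr_re (δ : ℝ) (v₀ : ℤ × ℤ) (z : ℂ) :
    (fr δ v₀ z).re = (z.re - z.im) / √2 - H446.G.dl δ * v₀.1 := by
  unfold fr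
  rw [Complex.add_re, rt_re, Complex.neg_re, Complex.re_ofReal_mul]
  rfl

theorem fr_im (δ : ℝ) (v₀ : ℤ × ℤ) (z : ℂ) :
    (fr δ v₀ z).im = (z.re + z.im) / √2 - H446.G.dl δ * v₀.2 := by
  unfold fr
  rw [Complex.add_im, rt_im, Complex.neg_im, Complex.im_ofReal_mul]
  rfl

theorem dist_fr (δ : ℝ) (v₀ : ℤ × ℤ) (z w : ℂ) : dist (fr δ v₀ z) (fr δ v₀ w) = dist z w := by
  unfold fr
  rw [dist_add_right, H446.G.dist_rt]

/-- The sites in the frame. -/
theorem zp_fr (δ : ℝ) (v₀ s : ℤ × ℤ) : fr δ v₀ (zp δ s) = (H446.G.dl δ : ℂ) * pt (s - v₀) := by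
  apply Complex.ext
  · rw [fr_re, Complex.re_ofReal_mul]
    simp only [zp, pt, H446.G.dl, Prod.fst_sub]
    push_cast
    ring
  · rw [fr_im, Complex.im_ofReal_mul]
    simp only [zp, pt, H446.G.dl, Prod.snd_sub]
    push_cast
    ring

variable {δ : ℝ} {v₀ x y s : ℤ × ℤ} {N : ℕ} {S₀ : Finset (ℤ × ℤ)} {z : ℂ}

/-- The open squares in the frame. -/
theorem Io_fr : z ∈ Io δ x ↔
    (H446.G.dl δ * ((x.1 - v₀.1 : ℤ) : ℝ) < (fr δ v₀ z).re ∧
      (fr δ v₀ z).re < H446.G.dl δ * (((x.1 - v₀.1 : ℤ) : ℝ) + 1)) ∧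
    H446.G.dl δ * ((x.2 - v₀.2 : ℤ) : ℝ) < (fr δ v₀ z).im ∧
      (fr δ v₀ z).im < H446.G.dl δ * (((x.2 - v₀.2 : ℤ) : ℝ) + 1) := by
  have h2 : (0 : ℝ) < √2 := by positivity
  rw [fr_re, fr_im]
  unfold Io H446.G.dl
  rw [mem_ofPred_eq]
  push_cast
  have e1 : ∀ a b c : ℝ, δ / √2 * (a - b) < c / √2 - δ / √2 * b ↔ δ * a < c := by
    intro a b c
    rw [← sub_pos, show c / √2 - δ / √2 * b - δ / √2 * (a - b) = (c - δ * a) / √2 by ring,
      div_pos_iff_of_pos_right h2, sub_pos]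
  have e2 : ∀ a b c : ℝ, c / √2 - δ / √2 * b < δ / √2 * (a - b + 1) ↔ c < δ * (a + 1) := by
    intro a b c
    rw [← sub_pos, show δ / √2 * (a - b + 1) - (c / √2 - δ / √2 * b) = (δ * (a + 1) - c) / √2
      by ring, div_pos_iff_of_pos_right h2, sub_pos]
  rw [e1, e1, e2, e2]

theorem isOpen_Pm : IsOpen (Pm δ v₀ N S₀) := isOpen_interior.preimage (continuous_fr _ _)

theorem div_eq {N : ℕ} (hN : 0 < N) {a g : ℤ} (h1 : (N : ℤ) * g ≤ a) (h2 : a < N * (g + 1)) :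
    a / N = g := by
  have hN' : (0 : ℤ) < N := by exact_mod_cast hN
  refine le_antisymm (Int.lt_add_one_iff.1 ?_) ?_
  · rw [Int.ediv_lt_iff_lt_mul hN', mul_comm]
    exact h2
  · rw [Int.le_ediv_iff_mul_le hN', mul_comm]
    exact h1

/-- **`p1`.** -/
theorem p1_Pm (hδ : 0 < δ) (hN : 0 < N) (hx : x ∈ (enl S₀ N).image (· + v₀)) :
    Io δ x ⊆ Pm δ v₀ N S₀ := by
  have hd := H446.G.dl_pos hδ
  have hN' : (0 : ℤ) < N := by exact_mod_cast hN
  rw [H653.Real.mem_tr, Enl.mem_enl_div hN] at hx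
  intro z hz
  show fr δ v₀ z ∈ interior _
  rw [mem_interior]
  refine ⟨{w | (H446.G.dl δ * ((x.1 - v₀.1 : ℤ) : ℝ) < w.re ∧ w.re < H446.G.dl δ * (((x.1 - v₀.1 : ℤ) : ℝ) + 1)) ∧
    H446.G.dl δ * ((x.2 - v₀.2 : ℤ) : ℝ) < w.im ∧ w.im < H446.G.dl δ * (((x.2 - v₀.2 : ℤ) : ℝ) + 1)}, ?_, ?_,
    Io_fr.1 hz⟩
  · rintro w ⟨⟨h1, h2⟩, h3, h4⟩
    refine ⟨_, hx, ?_, ?_, ?_, ?_⟩
    all_goals simp only [Prod.fst_sub, Prod.snd_sub]
    · have k1 := Int.mul_ediv_self_le (x := x.1 - v₀.1) hN'.ne'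
      have k2 : (N : ℝ) * (((x.1 - v₀.1) / N : ℤ) : ℝ) ≤ ((x.1 - v₀.1 : ℤ) : ℝ) := by
        exact_mod_cast k1
      nlinarith
    · have k1 := Int.lt_mul_ediv_self_add (x := x.1 - v₀.1) hN'
      have k2 : ((x.1 - v₀.1 : ℤ) : ℝ) + 1 ≤ (N : ℝ) * ((((x.1 - v₀.1) / N : ℤ) : ℝ) + 1) := by
        have : (x.1 - v₀.1) + 1 ≤ N * ((x.1 - v₀.1) / N + 1) := by linarith
        exact_mod_cast this
      nlinarith
    · have k1 := Int.mul_ediv_self_le (x := x.2 - v₀.2) hN'.ne'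
      have k2 : (N : ℝ) * (((x.2 - v₀.2) / N : ℤ) : ℝ) ≤ ((x.2 - v₀.2 : ℤ) : ℝ) := by
        exact_mod_cast k1
      nlinarith
    · have k1 := Int.lt_mul_ediv_self_add (x := x.2 - v₀.2) hN'
      have k2 : ((x.2 - v₀.2 : ℤ) : ℝ) + 1 ≤ (N : ℝ) * ((((x.2 - v₀.2) / N : ℤ) : ℝ) + 1) := by
        have : (x.2 - v₀.2) + 1 ≤ N * ((x.2 - v₀.2) / N + 1) := by linarith
        exact_mod_cast this
      nlinarith
  · refine IsOpen.inter (IsOpen.inter ?_ ?_) (IsOpen.inter ?_ ?_)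
    · exact isOpen_lt continuous_const Complex.continuous_re
    · exact isOpen_lt Complex.continuous_re continuous_const
    · exact isOpen_lt continuous_const Complex.continuous_im
    · exact isOpen_lt Complex.continuous_im continuous_const

/-- **`p2`.** -/
theorem p2_Pm (hδ : 0 < δ) (hN : 0 < N) (hy : y ∉ (enl S₀ N).image (· + v₀)) :
    Disjoint (Io δ y) (Pm δ v₀ N S₀) := by
  have hd := H446.G.dl_pos hδ
  rw [H653.Real.mem_tr, Enl.mem_enl_div hN] at hy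
  rw [disjoint_left]
  intro z hz hz'
  obtain ⟨g, hg, h1, h2, h3, h4⟩ := interior_subset hz'
  obtain ⟨⟨k1, k2⟩, k3, k4⟩ := (Io_fr (v₀ := v₀)).1 hz
  apply hy
  have e1 : (y - v₀).1 / (N : ℤ) = g.1 := by
    refine div_eq hN ?_ ?_
    · have : H446.G.dl δ * ((N : ℝ) * g.1) < H446.G.dl δ * (((y.1 - v₀.1 : ℤ) : ℝ) + 1) := by nlinarith
      have h5 := lt_of_mul_lt_mul_left this hd.le
      have h6 : (N : ℤ) * g.1 < y.1 - v₀.1 + 1 := by exact_mod_cast h5
      rw [Prod.fst_sub]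
      omega
    · have : H446.G.dl δ * ((y.1 - v₀.1 : ℤ) : ℝ) < H446.G.dl δ * ((N : ℝ) * (g.1 + 1)) := by nlinarith
      have h5 := lt_of_mul_lt_mul_left this hd.le
      have h6 : y.1 - v₀.1 < (N : ℤ) * (g.1 + 1) := by exact_mod_cast h5
      rw [Prod.fst_sub]
      exact h6
  have e2 : (y - v₀).2 / (N : ℤ) = g.2 := by
    refine div_eq hN ?_ ?_
    · have : H446.G.dl δ * ((N : ℝ) * g.2) < H446.G.dl δ * (((y.2 - v₀.2 : ℤ) : ℝ) + 1) := by nlinarith
      have h5 := lt_of_mul_lt_mul_left this hd.le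
      have h6 : (N : ℤ) * g.2 < y.2 - v₀.2 + 1 := by exact_mod_cast h5
      rw [Prod.snd_sub]
      omega
    · have : H446.G.dl δ * ((y.2 - v₀.2 : ℤ) : ℝ) < H446.G.dl δ * ((N : ℝ) * (g.2 + 1)) := by nlinarith
      have h5 := lt_of_mul_lt_mul_left this hd.le
      have h6 : y.2 - v₀.2 < (N : ℤ) * (g.2 + 1) := by exact_mod_cast h5
      rw [Prod.snd_sub]
      exact h6
  rw [e1, e2]
  exact hg

theorem isClosed_reg (l : ℝ) (S₀ : Finset (ℤ × ℤ)) : IsClosed (region l S₀) := by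
  have e : region l S₀ = ⋃ g ∈ (↑S₀ : Set (ℤ × ℤ)), {z : ℂ | l * g.1 ≤ z.re ∧ z.re ≤ l * (g.1 + 1) ∧
      l * g.2 ≤ z.im ∧ z.im ≤ l * (g.2 + 1)} := by
    ext z
    simp only [region, mem_ofPred_eq, mem_iUnion, exists_prop, Finset.mem_coe]
  rw [e]
  refine S₀.finite_toSet.isClosed_biUnion fun g _ => ?_
  refine IsClosed.inter ?_ (IsClosed.inter ?_ (IsClosed.inter ?_ ?_))
  · exact isClosed_le continuous_const Complex.continuous_re
  · exact isClosed_le Complex.continuous_re continuous_const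
  · exact isClosed_le continuous_const Complex.continuous_im
  · exact isClosed_le Complex.continuous_im continuous_const

/-- A closed small cell of the enlargement is in the region. -/
theorem cell_region (hd : 0 < H446.G.dl δ) (hN : 0 < N) {a : ℤ × ℤ} (ha : a ∈ enl S₀ N) {w : ℂ}
    (h1 : H446.G.dl δ * a.1 ≤ w.re) (h2 : w.re ≤ H446.G.dl δ * (a.1 + 1)) (h3 : H446.G.dl δ * a.2 ≤ w.im)
    (h4 : w.im ≤ H446.G.dl δ * (a.2 + 1)) : w ∈ region (H446.G.dl δ * N) S₀ := by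
  have hN' : (0 : ℤ) < N := by exact_mod_cast hN
  rw [Enl.mem_enl_div hN] at ha
  have lo : ∀ b : ℤ, (N : ℝ) * ((b / (N : ℤ) : ℤ) : ℝ) ≤ (b : ℝ) := fun b => by
    exact_mod_cast Int.mul_ediv_self_le (x := b) hN'.ne'
  have up : ∀ b : ℤ, (b : ℝ) + 1 ≤ (N : ℝ) * (((b / (N : ℤ) : ℤ) : ℝ) + 1) := fun b => by
    have k1 := Int.lt_mul_ediv_self_add (x := b) hN'
    have : b + 1 ≤ N * (b / N + 1) := by linarith
    exact_mod_cast this
  have l1 := lo a.1
  have l2 := lo a.2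
  have u1 := up a.1
  have u2 := up a.2
  refine ⟨_, ha, ?_, ?_, ?_, ?_⟩ <;> dsimp only <;> nlinarith

/-- **The sites on the boundary of the shape.** -/
theorem frontier_Pm (hδ : 0 < δ) (hN : 0 < N) (hs : zp δ s ∈ frontier (Pm δ v₀ N S₀)) :
    (∃ x ∈ (enl S₀ N).image (· + v₀), Cor x s) ∧
      ∃ y, y ∉ (enl S₀ N).image (· + v₀) ∧ Cor y s := by
  have hd := H446.G.dl_pos hδ
  have hN' : (0 : ℤ) < N := by exact_mod_cast hN
  rw [isOpen_Pm.frontier_eq] at hs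
  obtain ⟨hs1, hs2⟩ := hs
  have hg : fr δ v₀ (zp δ s) ∈ region (H446.G.dl δ * N) S₀ := by
    have h1 : closure (Pm δ v₀ N S₀) ⊆ fr δ v₀ ⁻¹' region (H446.G.dl δ * N) S₀ :=
      closure_minimal (preimage_mono interior_subset)
        ((isClosed_reg _ _).preimage (continuous_fr _ _))
    exact h1 hs1
  rw [zp_fr] at hg
  constructor
  · obtain ⟨g, hg, h1, h2, h3, h4⟩ := hg
    rw [Complex.re_ofReal_mul] at h1 h2
    rw [Complex.im_ofReal_mul] at h3 h4
    simp only [pt] at h1 h2 h3 h4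
    have c1 : (N : ℤ) * g.1 ≤ (s - v₀).1 := by
      have : H446.G.dl δ * ((N : ℝ) * g.1) ≤ H446.G.dl δ * ((s - v₀).1 : ℝ) := by rw [← mul_assoc]; exact h1
      exact_mod_cast le_of_mul_le_mul_left this hd
    have c2 : (s - v₀).1 ≤ (N : ℤ) * (g.1 + 1) := by
      have : H446.G.dl δ * ((s - v₀).1 : ℝ) ≤ H446.G.dl δ * ((N : ℝ) * (g.1 + 1)) := by
        rw [← mul_assoc]; exact h2
      exact_mod_cast le_of_mul_le_mul_left this hd
    have c3 : (N : ℤ) * g.2 ≤ (s - v₀).2 := by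
      have : H446.G.dl δ * ((N : ℝ) * g.2) ≤ H446.G.dl δ * ((s - v₀).2 : ℝ) := by rw [← mul_assoc]; exact h3
      exact_mod_cast le_of_mul_le_mul_left this hd
    have c4 : (s - v₀).2 ≤ (N : ℤ) * (g.2 + 1) := by
      have : H446.G.dl δ * ((s - v₀).2 : ℝ) ≤ H446.G.dl δ * ((N : ℝ) * (g.2 + 1)) := by
        rw [← mul_assoc]; exact h4
      exact_mod_cast le_of_mul_le_mul_left this hd
    rw [Prod.fst_sub] at c1 c2
    rw [Prod.snd_sub] at c3 c4
    obtain ⟨x1, e1, e2, e3⟩ : ∃ x1 : ℤ, (s.1 = x1 ∨ s.1 = x1 + 1) ∧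
        (N : ℤ) * g.1 ≤ x1 - v₀.1 ∧ x1 - v₀.1 < N * (g.1 + 1) := by
      rcases lt_or_eq_of_le c2 with h5 | h5
      · exact ⟨s.1, Or.inl rfl, c1, h5⟩
      · refine ⟨s.1 - 1, Or.inr (by ring), ?_, by omega⟩
        have : (N : ℤ) * (g.1 + 1) = N * g.1 + N := by ring
        omega
    obtain ⟨x2, f1, f2, f3⟩ : ∃ x2 : ℤ, (s.2 = x2 ∨ s.2 = x2 + 1) ∧
        (N : ℤ) * g.2 ≤ x2 - v₀.2 ∧ x2 - v₀.2 < N * (g.2 + 1) := by
      rcases lt_or_eq_of_le c4 with h5 | h5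
      · exact ⟨s.2, Or.inl rfl, c3, h5⟩
      · refine ⟨s.2 - 1, Or.inr (by ring), ?_, by omega⟩
        have : (N : ℤ) * (g.2 + 1) = N * g.2 + N := by ring
        omega
    refine ⟨(x1, x2), ?_, e1, f1⟩
    rw [H653.Real.mem_tr, Enl.mem_enl_div hN]
    have e4 : ((x1, x2) - v₀).1 / (N : ℤ) = g.1 := div_eq hN e2 e3
    have e5 : ((x1, x2) - v₀).2 / (N : ℤ) = g.2 := div_eq hN f2 f3
    rw [e4, e5]
    exact hg
  · by_contra hall
    push Not at hall
    apply hs2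
    show fr δ v₀ (zp δ s) ∈ interior _
    rw [zp_fr, mem_interior]
    have hin : ∀ y, Cor y s → y - v₀ ∈ enl S₀ N := by
      intro y hy
      by_contra h
      refine hall y ?_ hy
      rwa [H653.Real.mem_tr]
    refine ⟨{w | (H446.G.dl δ * (((s - v₀).1 : ℝ) - 1) < w.re ∧ w.re < H446.G.dl δ * (((s - v₀).1 : ℝ) + 1)) ∧
      H446.G.dl δ * (((s - v₀).2 : ℝ) - 1) < w.im ∧ w.im < H446.G.dl δ * (((s - v₀).2 : ℝ) + 1)}, ?_, ?_, ?_⟩
    · rintro w ⟨⟨h1, h2⟩, h3, h4⟩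
      rcases le_total (H446.G.dl δ * ((s - v₀).1 : ℝ)) w.re with h5 | h5 <;>
        rcases le_total (H446.G.dl δ * ((s - v₀).2 : ℝ)) w.im with h6 | h6
      · exact cell_region hd hN (hin s ⟨Or.inl rfl, Or.inl rfl⟩) h5 h2.le h6 h4.le
      · refine cell_region hd hN (hin (s.1, s.2 - 1) ⟨Or.inl rfl, Or.inr (by ring)⟩) ?_ ?_ ?_ ?_
        all_goals simp only [Prod.fst_sub, Prod.snd_sub] at h1 h2 h3 h4 h5 h6 ⊢
        all_goals push_cast at h1 h2 h3 h4 h5 h6 ⊢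
        all_goals nlinarith
      · refine cell_region hd hN (hin (s.1 - 1, s.2) ⟨Or.inr (by ring), Or.inl rfl⟩) ?_ ?_ ?_ ?_
        all_goals simp only [Prod.fst_sub, Prod.snd_sub] at h1 h2 h3 h4 h5 h6 ⊢
        all_goals push_cast at h1 h2 h3 h4 h5 h6 ⊢
        all_goals nlinarith
      · refine cell_region hd hN (hin (s.1 - 1, s.2 - 1) ⟨Or.inr (by ring), Or.inr (by ring)⟩)
          ?_ ?_ ?_ ?_
        all_goals simp only [Prod.fst_sub, Prod.snd_sub] at h1 h2 h3 h4 h5 h6 ⊢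
        all_goals push_cast at h1 h2 h3 h4 h5 h6 ⊢
        all_goals nlinarith
    · refine IsOpen.inter (IsOpen.inter ?_ ?_) (IsOpen.inter ?_ ?_)
      · exact isOpen_lt continuous_const Complex.continuous_re
      · exact isOpen_lt Complex.continuous_re continuous_const
      · exact isOpen_lt continuous_const Complex.continuous_im
      · exact isOpen_lt Complex.continuous_im continuous_const
    · refine ⟨⟨?_, ?_⟩, ?_, ?_⟩
      · rw [Complex.re_ofReal_mul]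
        simp only [pt]
        nlinarith
      · rw [Complex.re_ofReal_mul]
        simp only [pt]
        nlinarith
      · rw [Complex.im_ofReal_mul]
        simp only [pt]
        nlinarith
      · rw [Complex.im_ofReal_mul]
        simp only [pt]
        nlinarith

/-! ### Sites near the sides -/

variable {m : ℕ} {q : ZMod m → ℤ × ℤ} {t K : ℕ}

/-- The `i`-th side of the shape in the frame. -/
def side (δ : ℝ) (N : ℕ) (q : ZMod m → ℤ × ℤ) (i : ℕ) : Set ℂ :=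
  segment ℝ (((H446.G.dl δ * N : ℝ) : ℂ) * pt (q (i : ZMod m)))
    (((H446.G.dl δ * N : ℝ) : ℂ) * pt (q ((i + 1 : ℕ) : ZMod m)))

theorem seg_aux {N : ℕ} (hN : 0 < N) (d : ℝ) (a b : ℤ × ℤ) (r : ℕ) :
    (1 - (r : ℝ) / N) • (((d * N : ℝ) : ℂ) * pt a) + ((r : ℝ) / N) • (((d * N : ℝ) : ℂ) * pt (a + b)) =
      (d : ℂ) * pt ((N : ℤ) • a + (r : ℤ) • b) := by
  have hN' : (N : ℝ) ≠ 0 := by positivity
  apply Complex.ext
  · simp only [pt, Complex.add_re, Complex.real_smul, Complex.re_ofReal_mul, Prod.fst_add,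
      Prod.smul_fst, smul_eq_mul]
    push_cast
    field_simp
    ring
  · simp only [pt, Complex.add_im, Complex.real_smul, Complex.im_ofReal_mul, Prod.snd_add,
      Prod.smul_snd, smul_eq_mul]
    push_cast
    field_simp
    ring

/-- The boundary sites are on the sides. -/
theorem PN_side (hq : IsPolygon q) (hN : 0 < N) (j : ℕ) :
    (H446.G.dl δ : ℂ) * pt (Enl.PN q N j) ∈ side δ N q (j / N) := by
  have hN' : (0 : ℝ) < N := by exact_mod_cast hN
  have hlt := Nat.mod_lt j hN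
  have h1 : Enl.PN q N j = (N : ℤ) • q ((j / N : ℕ) : ZMod m) +
      ((j % N : ℕ) : ℤ) • dir (pdir q (j / N)) := rfl
  have h2 : q ((j / N + 1 : ℕ) : ZMod m) = q ((j / N : ℕ) : ZMod m) + dir (pdir q (j / N)) := by
    rw [Nat.cast_add, Nat.cast_one]
    exact Enl.pdir_step hq (j / N)
  rw [side, segment_eq_image]
  refine ⟨((j % N : ℕ) : ℝ) / N, ⟨by positivity, ?_⟩, ?_⟩
  · rw [div_le_one hN']
    exact_mod_cast hlt.le
  · dsimp only
    rw [h1, h2]
    exact seg_aux hN _ _ _ _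

/-- Sites which are near a boundary site are near its side. -/
theorem near_side (hδ : 0 < δ) (hq : IsPolygon q) (hN : 0 < N) {i : ℕ}
    (h : Nr s (cc q N t v₀ i)) : ∃ z ∈ side δ N q ((i + t) / N),
      dist ((H446.G.dl δ : ℂ) * pt (s - v₀)) z < 6 * H446.G.dl δ := by
  have hd := H446.G.dl_pos hδ
  refine ⟨_, PN_side hq hN (i + t), ?_⟩
  obtain ⟨h1, h2⟩ := h
  unfold cc at h1 h2
  rw [dist_eq_norm, ← mul_sub, norm_mul, Complex.norm_real, Real.norm_of_nonneg hd.le, mul_comm]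
  refine mul_lt_mul_of_pos_right ?_ hd
  have h3 : |(pt (s - v₀) - pt (Enl.PN q N (i + t))).re| ≤ 3 := by
    simp only [pt, Complex.sub_re, Prod.fst_sub, Prod.fst_add] at h1 ⊢
    have e : ((s.1 - v₀.1 : ℤ) : ℝ) - (Enl.PN q N (i + t)).1 =
        ((s.1 - ((Enl.PN q N (i + t)).1 + v₀.1) : ℤ) : ℝ) := by
      push_cast
      ring
    rw [e]
    exact_mod_cast h1
  have h4 : |(pt (s - v₀) - pt (Enl.PN q N (i + t))).im| ≤ 3 := by
    simp only [pt, Complex.sub_im, Prod.snd_sub, Prod.snd_add] at h2 ⊢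
    have e : ((s.2 - v₀.2 : ℤ) : ℝ) - (Enl.PN q N (i + t)).2 =
        ((s.2 - ((Enl.PN q N (i + t)).2 + v₀.2) : ℤ) : ℝ) := by
      push_cast
      ring
    rw [e]
    exact_mod_cast h2
  have h5 := Complex.sq_norm (pt (s - v₀) - pt (Enl.PN q N (i + t)))
  rw [Complex.normSq_apply] at h5
  have h6 := abs_le.1 h3
  have h7 := abs_le.1 h4
  have h8 := norm_nonneg (pt (s - v₀) - pt (Enl.PN q N (i + t)))
  nlinarith

/-- **The free side: no wired boundary site is near `s`.** The position of `b` is at the middle of the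
side `0`, the position of `a` at the middle of the side `kP`. -/
theorem far_true (hδ : 0 < δ) (hq : IsPolygon q) (hN : 4 ≤ N) {kP : ℕ} (hk : kP < m)
    (hfar : ∀ i, i ≤ kP → ∀ z ∈ side δ N q i, 6 * H446.G.dl δ ≤ dist ((H446.G.dl δ : ℂ) * pt (s - v₀)) z) :
    ∀ i, (m - kP) * N ≤ i → i ≤ m * N → ¬ Nr s (cc q N (kP * N + N / 2 + 1) v₀ i) := by
  intro i h1 h2 h3
  have hm := hq.1
  have hN0 : 0 < N := by omega
  have : NeZero m := ⟨by omega⟩
  obtain ⟨z, hz, h4⟩ := near_side hδ hq hN0 h3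
  have e1 : m * N ≤ i + (kP * N + N / 2 + 1) := by
    have : (m - kP) * N + kP * N = m * N := by
      rw [← Nat.add_mul]
      congr 1
      omega
    omega
  obtain ⟨j, hj⟩ := Nat.exists_eq_add_of_le e1
  have e2 : (i + (kP * N + N / 2 + 1)) / N = m + j / N := by
    rw [hj, add_comm (m * N), Nat.add_mul_div_right _ _ hN0, add_comm]
  have e3 : j / N ≤ kP := by
    rw [Nat.div_le_iff_le_mul_add_pred hN0]
    have : N * kP = kP * N := mul_comm _ _
    omega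
  rw [e2] at hz
  have e4 : side δ N q (m + j / N) = side δ N q (j / N) := by
    unfold side
    have k1 : ((m + j / N : ℕ) : ZMod m) = ((j / N : ℕ) : ZMod m) := by
      rw [Nat.cast_add, ZMod.natCast_self, zero_add]
    have k2 : ((m + j / N + 1 : ℕ) : ZMod m) = ((j / N + 1 : ℕ) : ZMod m) := by
      rw [add_assoc, Nat.cast_add, ZMod.natCast_self, zero_add]
    rw [k1, k2]
  rw [e4] at hz
  exact absurd h4 (not_lt.2 (hfar _ e3 z hz))

/-- **The wired side: no free boundary site is near `s`.** -/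
theorem far_false (hδ : 0 < δ) (hq : IsPolygon q) (hN : 4 ≤ N) {kP : ℕ} (hk : kP < m)
    (hfar : ∀ i, kP ≤ i → i ≤ m → ∀ z ∈ side δ N q i,
      6 * H446.G.dl δ ≤ dist ((H446.G.dl δ : ℂ) * pt (s - v₀)) z) :
    ∀ i, i ≤ (m - kP) * N → ¬ Nr s (cc q N (kP * N + N / 2 + 1) v₀ i) := by
  intro i h1 h3
  have hm := hq.1
  have hN0 : 0 < N := by omega
  have : NeZero m := ⟨by omega⟩
  obtain ⟨z, hz, h4⟩ := near_side hδ hq hN0 h3
  have e1 : i + (kP * N + N / 2 + 1) ≤ m * N + (N / 2 + 1) := by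
    have : (m - kP) * N + kP * N = m * N := by
      rw [← Nat.add_mul]
      congr 1
      omega
    omega
  have e2 : (i + (kP * N + N / 2 + 1)) / N ≤ m := by
    rw [Nat.div_le_iff_le_mul_add_pred hN0]
    have : N * m = m * N := mul_comm _ _
    omega
  have e3 : kP ≤ (i + (kP * N + N / 2 + 1)) / N := by
    rw [Nat.le_div_iff_mul_le hN0]
    omega
  exact absurd h4 (not_lt.2 (hfar _ e3 e2 z hz))

end Vale.Agent.P167.H692.G2
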